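import Mathlib

/-! Row 258: explicit bihomogeneous polynomials and their identities. -/

set_option autoImplicit false
set_option linter.unusedSimpArgs false

noncomputable section

namespace Crest.Agent.R258

/-- A bihomogeneous form of bidegree `(k,l)` with coefficients in `ℤ[ω]`. -/
structure BiF (k l : ℕ) where
  L : List (ℤ × ℤ × ℕ × ℕ)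
  ok : ∀ e ∈ L, e.2.2.1 ≤ k ∧ e.2.2.2 ≤ l

def BiF.tm {R : Type*} [CommRing R] (k l : ℕ) (ω : R) (X Y : Fin 2 → R) (e : ℤ × ℤ × ℕ × ℕ) : R :=
  ((e.1 : R) + (e.2.1 : R) * ω) * (X 0 ^ (k - e.2.2.1) * X 1 ^ e.2.2.1 *
    (Y 0 ^ (l - e.2.2.2) * Y 1 ^ e.2.2.2))

def BiF.ev {k l : ℕ} (P : BiF k l) {R : Type*} [CommRing R] (ω : R) (X Y : Fin 2 → R) : R :=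
  (P.L.map (BiF.tm k l ω X Y)).sum

def dt {R : Type*} [CommRing R] (u v : Fin 2 → R) : R := u 0 * v 1 - u 1 * v 0

def gv {R : Type*} [CommRing R] (ω : R) (i : Fin 3) (X : Fin 2 → R) : Fin 2 → R :=
  ![![X 0, X 1], ![ω * X 0, (ω - 1) * X 1],
    ![(ω - 3) * X 0 + 2 * X 1, -3 * X 0 + (ω + 2) * X 1]] i

def fT : BiF 3 3 := ⟨[
  (-2, 2, 3, 1), (3, -2, 3, 0), (2, -4, 2, 2), (-2, 2, 2, 1), (-3, 3, 2, 0), (0, 2, 1, 3), 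
  (0, 2, 1, 2), (3, -6, 1, 1), (-1, -2, 0, 3), (0, 3, 0, 2)], by decide⟩

def p0T : BiF 6 2 := ⟨[
  (64, 0, 6, 0), (-128, 64, 5, 1), (-416, 160, 5, 0), (64, -64, 4, 2), (672, -576, 4, 1), 
  (864, -640, 4, 0), (-256, 416, 3, 2), (-1088, 1504, 3, 1), (-664, 800, 3, 0), 
  (224, -864, 2, 2), (528, -1464, 2, 1), (140, -308, 2, 0), (136, 664, 1, 2), (28, 448, 1, 1), 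
  (-168, -140, 0, 2), (1, 0, 0, 0)], by decide⟩

def p1T : BiF 6 2 := ⟨[
  (1, 0, 6, 2), (-693, 315, 6, 0), (1071, -1008, 5, 1), (2700, -2241, 5, 0), (-378, 693, 4, 2), 
  (-3159, 4941, 4, 1), (-3240, 4374, 4, 0), (459, -2700, 3, 2), (2106, -7614, 3, 1), 
  (1215, -3159, 3, 0), (1134, 3240, 2, 2), (729, 4374, 2, 1), (0, 729, 2, 0), 
  (-1944, -1215, 1, 2), (-729, -729, 1, 1), (729, 0, 0, 2)], by decide⟩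

def q0T : BiF 2 6 := ⟨[
  (0, 64, 2, 4), (160, -416, 2, 3), (-640, 864, 2, 2), (800, -664, 2, 1), (-308, 140, 2, 0), 
  (-64, -64, 1, 5), (96, 576, 1, 4), (416, -1504, 1, 3), (-936, 1464, 1, 2), (476, -448, 1, 1), 
  (64, 0, 0, 6), (-256, -160, 0, 5), (224, 640, 0, 4), (136, -800, 0, 3), (-168, 308, 0, 2), 
  (1, 0, 0, 0)], by decide⟩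

def q1T : BiF 2 6 := ⟨[
  (1, 0, 2, 6), (315, -693, 2, 4), (-2241, 2700, 2, 3), (4374, -3240, 2, 2), 
  (-3159, 1215, 2, 1), (729, 0, 2, 0), (63, 1008, 1, 5), (1782, -4941, 1, 4), 
  (-5508, 7614, 1, 3), (5103, -4374, 1, 2), (-1458, 729, 1, 1), (-378, -315, 0, 6), 
  (459, 2241, 0, 5), (1134, -4374, 0, 4), (-1944, 3159, 0, 3), (729, -729, 0, 2)], by decide⟩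

def wT : BiF 3 7 := ⟨[
  (0, -32, 3, 7), (16, -48, 3, 6), (40, -64, 3, 5), (72, -76, 3, 4), (110, -78, 3, 3), 
  (149, -62, 3, 2), (180, -18, 3, 1), (189, 63, 3, 0), (64, 96, 2, 7), (16, 168, 2, 6), 
  (-64, 248, 2, 5), (-178, 324, 2, 4), (-322, 378, 2, 3), (-483, 387, 2, 2), (-639, 324, 2, 1), 
  (-756, 162, 2, 0), (-176, -48, 1, 7), (-140, -144, 1, 6), (-64, -258, 1, 5), (56, -378, 1, 4), 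
  (219, -486, 1, 3), (414, -558, 1, 2), (621, -567, 1, 1), (810, -486, 1, 0), (112, -28, 0, 7), 
  (108, 12, 0, 6), (87, 62, 0, 5), (48, 117, 0, 4), (-9, 171, 0, 3), (-81, 216, 0, 2), 
  (-162, 243, 0, 1), (-243, 243, 0, 0)], by decide⟩

def r00T : BiF 5 5 := ⟨[
  (-2048, 2048, 5, 3), (10240, -6144, 5, 2), (-14336, 3072, 5, 1), (5376, 1792, 5, 0), 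
  (2048, -4096, 4, 4), (-8192, 6144, 4, 3), (-13824, 22016, 4, 2), (54784, -35328, 4, 1), 
  (-31744, 5504, 4, 0), (0, 2048, 3, 5), (2048, 6144, 3, 4), (25088, -50176, 3, 3), 
  (-49664, 33536, 3, 2), (-30336, 51072, 3, 1), (52032, -29184, 3, 0), (-4096, -6144, 2, 5), 
  (-8192, 22016, 2, 4), (16128, 33536, 2, 3), (56576, -113152, 2, 2), (-45696, 29184, 2, 1), 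
  (-23680, 23744, 2, 0), (11264, 3072, 1, 5), (-19456, -35328, 1, 4), (-20736, 51072, 1, 3), 
  (16512, 29184, 1, 2), (23712, -47424, 1, 1), (-192, -48, 1, 0), (-7168, 1792, 0, 5), 
  (26240, 5504, 0, 4), (-22848, -29184, 0, 3), (-64, 23744, 0, 2), (240, -48, 0, 1), 
  (56, -112, 0, 0)], by decide⟩

def r01T : BiF 5 5 := ⟨[
  (-32, 32, 5, 5), (160, -96, 5, 4), (11872, -22128, 5, 3), (-80556, 86716, 5, 2), 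
  (140112, -88704, 5, 1), (-67032, 15876, 5, 0), (-32, 48, 4, 5), (-1832, 34104, 4, 4), 
  (66676, -109008, 4, 3), (-49128, -52356, 4, 2), (-227592, 297216, 4, 1), 
  (210168, -133056, 4, 0), (-10104, -12032, 3, 5), (-36680, 14584, 3, 4), (29054, 241890, 3, 3), 
  (232853, -405710, 3, 2), (-73692, -78534, 3, 1), (-181251, 195111, 3, 0), (50540, 7708, 2, 5), 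
  (-59758, -119556, 2, 4), (-150658, 71874, 2, 3), (43581, 362835, 2, 2), 
  (150021, -245268, 2, 1), (40068, -74682, 2, 0), (-60304, 18726, 1, 5), (192404, 34074, 1, 4), 
  (-89637, -179334, 1, 3), (-82530, 32814, 1, 2), (-6183, 115101, 1, 1), (810, -486, 1, 0), 
  (19995, -13330, 0, 5), (-90456, 28089, 0, 4), (113715, 17343, 0, 3), (-34101, -40608, 0, 2), 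
  (-162, 243, 0, 1), (-243, 243, 0, 0)], by decide⟩

def r10T : BiF 5 5 := ⟨[
  (0, 32, 5, 5), (-16, 48, 5, 4), (22136, -12032, 5, 3), (-58248, 7708, 5, 2), 
  (41578, 18726, 5, 1), (-6665, -13330, 5, 0), (-64, -96, 4, 5), (-32272, 34104, 4, 4), 
  (22096, 14584, 4, 3), (179314, -119556, 4, 2), (-226478, 34074, 4, 1), (62367, 28089, 4, 0), 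
  (10256, -22128, 3, 5), (42332, -109008, 3, 4), (-270944, 241890, 3, 3), (78784, 71874, 3, 2), 
  (268971, -179334, 3, 1), (-131058, 17343, 3, 0), (-6160, 86716, 2, 5), (101484, -52356, 2, 4), 
  (172857, -405710, 2, 3), (-406416, 362835, 2, 2), (49716, 32814, 2, 1), (74709, -40608, 2, 0), 
  (-51408, -88704, 1, 5), (-69624, 297216, 1, 4), (152226, -78534, 1, 3), 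
  (95247, -245268, 1, 2), (-108918, 115101, 1, 1), (-81, 243, 1, 0), (51156, 15876, 0, 5), 
  (-77112, -133056, 0, 4), (-13860, 195111, 0, 3), (34614, -74682, 0, 2), (-324, -486, 0, 1), 
  (0, 243, 0, 0)], by decide⟩

def r11T : BiF 5 5 := ⟨[
  (189, -378, 5, 5), (-972, -243, 5, 4), (-179820, 180306, 5, 3), (592677, -332424, 5, 2), 
  (-542376, 94041, 5, 1), (137781, 45927, 5, 0), (1215, -243, 4, 5), (180063, -360126, 4, 4), 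
  (-520506, 332424, 4, 3), (-518319, 872613, 4, 2), (1404054, -905418, 4, 1), 
  (-551124, 118098, 4, 0), (-486, 180306, 3, 5), (188082, 332424, 3, 4), 
  (966654, -1933308, 3, 3), (-1272834, 859491, 3, 2), (-531441, 846369, 3, 1), 
  (590490, -354294, 3, 0), (-260253, -332424, 2, 5), (-354294, 872613, 2, 4), 
  (413343, 859491, 2, 3), (964467, -1928934, 2, 2), (-472392, 354294, 2, 1), 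
  (-177147, 177147, 2, 0), (448335, 94041, 1, 5), (-498636, -905418, 1, 4), 
  (-314928, 846369, 1, 3), (118098, 354294, 1, 2), (177147, -354294, 1, 1), 
  (-183708, 45927, 0, 5), (433026, 118098, 0, 4), (-236196, -354294, 0, 3), (0, 177147, 0, 2)], by decide⟩

section ids
variable {R : Type*} [CommRing R] {ω : R} (hω : ω ^ 2 = ω - 1) (X Y : Fin 2 → R)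
include hω

theorem id_w : Y 1 ^ 8 * p0T.ev ω X Y - Y 0 ^ 8 * p1T.ev ω X Y = fT.ev ω X Y * wT.ev ω X Y := by
  simp only [BiF.ev, BiF.tm, fT, p0T, p1T, q0T, q1T, wT, r00T, r01T, r10T, r11T, List.map_cons, List.map_nil,
    List.sum_cons, List.sum_nil, Nat.reduceSub]
  push_cast
  linear_combination (-(((2) * X 0 ^ 0 * X 1 ^ 3 * Y 0 ^ 2 * Y 1 ^ 1 + (-2) * X 0 ^ 0 * X 1 ^ 3 * Y 0 ^ 3 * Y 1 ^ 0 + (-4) * X 0 ^ 1 * X 1 ^ 2 * Y 0 ^ 1 * Y 1 ^ 2 + (2) * X 0 ^ 1 * X 1 ^ 2 * Y 0 ^ 2 * Y 1 ^ 1 + (3) * X 0 ^ 1 * X 1 ^ 2 * Y 0 ^ 3 * Y 1 ^ 0 + (2) * X 0 ^ 2 * X 1 ^ 1 * Y 0 ^ 0 * Y 1 ^ 3 + (2) * X 0 ^ 2 * X 1 ^ 1 * Y 0 ^ 1 * Y 1 ^ 2 + (-6) * X 0 ^ 2 * X 1 ^ 1 * Y 0 ^ 2 * Y 1 ^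 1 + (-2) * X 0 ^ 3 * X 1 ^ 0 * Y 0 ^ 0 * Y 1 ^ 3 + (3) * X 0 ^ 3 * X 1 ^ 0 * Y 0 ^ 1 * Y 1 ^ 2) * ((-32) * X 0 ^ 0 * X 1 ^ 3 * Y 0 ^ 0 * Y 1 ^ 7 + (-48) * X 0 ^ 0 * X 1 ^ 3 * Y 0 ^ 1 * Y 1 ^ 6 + (-64) * X 0 ^ 0 * X 1 ^ 3 * Y 0 ^ 2 * Y 1 ^ 5 + (-76) * X 0 ^ 0 * X 1 ^ 3 * Y 0 ^ 3 * Y 1 ^ 4 + (-78) * X 0 ^ 0 * X 1 ^ 3 * Y 0 ^ 4 * Y 1 ^ 3 + (-62) * X 0 ^ 0 * X 1 ^ 3 * Y 0 ^ 5 * Y 1 ^ 2 + (-18) * X 0 ^ 0 * X 1 ^ 3 * Y 0 ^ 6 * Y 1 ^ 1 + (63) * X 0 ^ 0 * X 1 ^ 3 * Y 0 ^ 7 * Y 1 ^ 0 + (96) * X 0 ^ 1 * X 1 ^ 2 * Y 0 ^ 0 * Y 1 ^ 7 + (168) * X 0 ^ 1 * X 1 ^ 2 * Y 0 ^ 1 * Y 1 ^ 6 + (248) * X 0 ^ 1 * X 1 ^ 2 * Y 0 ^ 2 * Y 1 ^ 5 + (324) * X 0 ^ 1 * X 1 ^ 2 * Y 0 ^ 3 * Y 1 ^ 4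 + (378) * X 0 ^ 1 * X 1 ^ 2 * Y 0 ^ 4 * Y 1 ^ 3 + (387) * X 0 ^ 1 * X 1 ^ 2 * Y 0 ^ 5 * Y 1 ^ 2 + (324) * X 0 ^ 1 * X 1 ^ 2 * Y 0 ^ 6 * Y 1 ^ 1 + (162) * X 0 ^ 1 * X 1 ^ 2 * Y 0 ^ 7 * Y 1 ^ 0 + (-48) * X 0 ^ 2 * X 1 ^ 1 * Y 0 ^ 0 * Y 1 ^ 7 + (-144) * X 0 ^ 2 * X 1 ^ 1 * Y 0 ^ 1 * Y 1 ^ 6 + (-258) * X 0 ^ 2 * X 1 ^ 1 * Y 0 ^ 2 * Y 1 ^ 5 + (-378) * X 0 ^ 2 * X 1 ^ 1 * Y 0 ^ 3 * Y 1 ^ 4 + (-486) * X 0 ^ 2 * X 1 ^ 1 * Y 0 ^ 4 * Y 1 ^ 3 + (-558) * X 0 ^ 2 * X 1 ^ 1 * Y 0 ^ 5 * Y 1 ^ 2 + (-567) * X 0 ^ 2 * X 1 ^ 1 * Y 0 ^ 6 * Y 1 ^ 1 + (-486) * X 0 ^ 2 * X 1 ^ 1 * Y 0 ^ 7 * Y 1 ^ 0 + (-28) * X 0 ^ 3 * X 1 ^ 0 * Y 0 ^ 0 * Y 1 ^ 7 + (12) * X 0 ^ 3 * X 1 ^ 0 * Y 0 ^ 1 * Y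 1 ^ 6 + (62) * X 0 ^ 3 * X 1 ^ 0 * Y 0 ^ 2 * Y 1 ^ 5 + (117) * X 0 ^ 3 * X 1 ^ 0 * Y 0 ^ 3 * Y 1 ^ 4 + (171) * X 0 ^ 3 * X 1 ^ 0 * Y 0 ^ 4 * Y 1 ^ 3 + (216) * X 0 ^ 3 * X 1 ^ 0 * Y 0 ^ 5 * Y 1 ^ 2 + (243) * X 0 ^ 3 * X 1 ^ 0 * Y 0 ^ 6 * Y 1 ^ 1 + (243) * X 0 ^ 3 * X 1 ^ 0 * Y 0 ^ 7 * Y 1 ^ 0))) * hω

theorem id_r00 : X 0 ^ 8 * Y 0 ^ 8 = q0T.ev ω X Y * p0T.ev ω X Y + fT.ev ω X Y * r00T.ev ω X Y := by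
  simp only [BiF.ev, BiF.tm, fT, p0T, p1T, q0T, q1T, wT, r00T, r01T, r10T, r11T, List.map_cons, List.map_nil,
    List.sum_cons, List.sum_nil, Nat.reduceSub]
  push_cast
  linear_combination (-(((64) * X 0 ^ 0 * X 1 ^ 2 * Y 0 ^ 2 * Y 1 ^ 4 + (-416) * X 0 ^ 0 * X 1 ^ 2 * Y 0 ^ 3 * Y 1 ^ 3 + (864) * X 0 ^ 0 * X 1 ^ 2 * Y 0 ^ 4 * Y 1 ^ 2 + (-664) * X 0 ^ 0 * X 1 ^ 2 * Y 0 ^ 5 * Y 1 ^ 1 + (140) * X 0 ^ 0 * X 1 ^ 2 * Y 0 ^ 6 * Y 1 ^ 0 + (-64) * X 0 ^ 1 * X 1 ^ 1 * Y 0 ^ 1 * Y 1 ^ 5 + (576) * X 0 ^ 1 * X 1 ^ 1 * Y 0 ^ 2 * Y 1 ^ 4 + (-1504) * X 0 ^ 1 * X 1 ^ 1 * Y 0 ^ 3 * Y 1 ^ 3 + (1464) * X 0 ^ 1 * X 1 ^ 1 * Y 0 ^ 4 * Y 1 ^ 2 + (-448) * X 0 ^ 1 * X 1 ^ 1 * Y 0 ^ 5 * Y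 1 ^ 1 + (-160) * X 0 ^ 2 * X 1 ^ 0 * Y 0 ^ 1 * Y 1 ^ 5 + (640) * X 0 ^ 2 * X 1 ^ 0 * Y 0 ^ 2 * Y 1 ^ 4 + (-800) * X 0 ^ 2 * X 1 ^ 0 * Y 0 ^ 3 * Y 1 ^ 3 + (308) * X 0 ^ 2 * X 1 ^ 0 * Y 0 ^ 4 * Y 1 ^ 2) * ((64) * X 0 ^ 1 * X 1 ^ 5 * Y 0 ^ 1 * Y 1 ^ 1 + (160) * X 0 ^ 1 * X 1 ^ 5 * Y 0 ^ 2 * Y 1 ^ 0 + (-64) * X 0 ^ 2 * X 1 ^ 4 * Y 0 ^ 0 * Y 1 ^ 2 + (-576) * X 0 ^ 2 * X 1 ^ 4 * Y 0 ^ 1 * Y 1 ^ 1 + (-640) * X 0 ^ 2 * X 1 ^ 4 * Y 0 ^ 2 * Y 1 ^ 0 + (416) * X 0 ^ 3 * X 1 ^ 3 * Y 0 ^ 0 * Y 1 ^ 2 + (1504) * X 0 ^ 3 * X 1 ^ 3 * Y 0 ^ 1 * Y 1 ^ 1 + (800) * X 0 ^ 3 * X 1 ^ 3 * Y 0 ^ 2 * Y 1 ^ 0 + (-864) * X 0 ^ 4 * X 1 ^ 2 * Y 0 ^ 0 * Y 1 ^ 2 + (-1464) * X 0 ^ 4 * X 1 ^ 2 * Y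 0 ^ 1 * Y 1 ^ 1 + (-308) * X 0 ^ 4 * X 1 ^ 2 * Y 0 ^ 2 * Y 1 ^ 0 + (664) * X 0 ^ 5 * X 1 ^ 1 * Y 0 ^ 0 * Y 1 ^ 2 + (448) * X 0 ^ 5 * X 1 ^ 1 * Y 0 ^ 1 * Y 1 ^ 1 + (-140) * X 0 ^ 6 * X 1 ^ 0 * Y 0 ^ 0 * Y 1 ^ 2) + ((2) * X 0 ^ 0 * X 1 ^ 3 * Y 0 ^ 2 * Y 1 ^ 1 + (-2) * X 0 ^ 0 * X 1 ^ 3 * Y 0 ^ 3 * Y 1 ^ 0 + (-4) * X 0 ^ 1 * X 1 ^ 2 * Y 0 ^ 1 * Y 1 ^ 2 + (2) * X 0 ^ 1 * X 1 ^ 2 * Y 0 ^ 2 * Y 1 ^ 1 + (3) * X 0 ^ 1 * X 1 ^ 2 * Y 0 ^ 3 * Y 1 ^ 0 + (2) * X 0 ^ 2 * X 1 ^ 1 * Y 0 ^ 0 * Y 1 ^ 3 + (2) * X 0 ^ 2 * X 1 ^ 1 * Y 0 ^ 1 * Y 1 ^ 2 + (-6) * X 0 ^ 2 * X 1 ^ 1 * Y 0 ^ 2 * Y 1 ^ 1 + (-2) * X 0 ^ 3 * X 1 ^ 0 * Y 0 ^ 0 * Y 1 ^ 3 + (3) * X 0 ^ 3 * X 1 ^ 0 * Y 0 ^ 1 * Y 1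 ^ 2) * ((2048) * X 0 ^ 0 * X 1 ^ 5 * Y 0 ^ 2 * Y 1 ^ 3 + (-6144) * X 0 ^ 0 * X 1 ^ 5 * Y 0 ^ 3 * Y 1 ^ 2 + (3072) * X 0 ^ 0 * X 1 ^ 5 * Y 0 ^ 4 * Y 1 ^ 1 + (1792) * X 0 ^ 0 * X 1 ^ 5 * Y 0 ^ 5 * Y 1 ^ 0 + (-4096) * X 0 ^ 1 * X 1 ^ 4 * Y 0 ^ 1 * Y 1 ^ 4 + (6144) * X 0 ^ 1 * X 1 ^ 4 * Y 0 ^ 2 * Y 1 ^ 3 + (22016) * X 0 ^ 1 * X 1 ^ 4 * Y 0 ^ 3 * Y 1 ^ 2 + (-35328) * X 0 ^ 1 * X 1 ^ 4 * Y 0 ^ 4 * Y 1 ^ 1 + (5504) * X 0 ^ 1 * X 1 ^ 4 * Y 0 ^ 5 * Y 1 ^ 0 + (2048) * X 0 ^ 2 * X 1 ^ 3 * Y 0 ^ 0 * Y 1 ^ 5 + (6144) * X 0 ^ 2 * X 1 ^ 3 * Y 0 ^ 1 * Y 1 ^ 4 + (-50176) * X 0 ^ 2 * X 1 ^ 3 * Y 0 ^ 2 * Y 1 ^ 3 + (33536) * X 0 ^ 2 * X 1 ^ 3 * Y 0 ^ 3 * Y 1 ^ 2 + (51072) * X 0 ^ 2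 * X 1 ^ 3 * Y 0 ^ 4 * Y 1 ^ 1 + (-29184) * X 0 ^ 2 * X 1 ^ 3 * Y 0 ^ 5 * Y 1 ^ 0 + (-6144) * X 0 ^ 3 * X 1 ^ 2 * Y 0 ^ 0 * Y 1 ^ 5 + (22016) * X 0 ^ 3 * X 1 ^ 2 * Y 0 ^ 1 * Y 1 ^ 4 + (33536) * X 0 ^ 3 * X 1 ^ 2 * Y 0 ^ 2 * Y 1 ^ 3 + (-113152) * X 0 ^ 3 * X 1 ^ 2 * Y 0 ^ 3 * Y 1 ^ 2 + (29184) * X 0 ^ 3 * X 1 ^ 2 * Y 0 ^ 4 * Y 1 ^ 1 + (23744) * X 0 ^ 3 * X 1 ^ 2 * Y 0 ^ 5 * Y 1 ^ 0 + (3072) * X 0 ^ 4 * X 1 ^ 1 * Y 0 ^ 0 * Y 1 ^ 5 + (-35328) * X 0 ^ 4 * X 1 ^ 1 * Y 0 ^ 1 * Y 1 ^ 4 + (51072) * X 0 ^ 4 * X 1 ^ 1 * Y 0 ^ 2 * Y 1 ^ 3 + (29184) * X 0 ^ 4 * X 1 ^ 1 * Y 0 ^ 3 * Y 1 ^ 2 + (-47424) * X 0 ^ 4 * X 1 ^ 1 * Y 0 ^ 4 * Y 1 ^ 1 + (-48) * X 0 ^ 4 * X 1 ^ 1 * Y 0 ^ 5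 * Y 1 ^ 0 + (1792) * X 0 ^ 5 * X 1 ^ 0 * Y 0 ^ 0 * Y 1 ^ 5 + (5504) * X 0 ^ 5 * X 1 ^ 0 * Y 0 ^ 1 * Y 1 ^ 4 + (-29184) * X 0 ^ 5 * X 1 ^ 0 * Y 0 ^ 2 * Y 1 ^ 3 + (23744) * X 0 ^ 5 * X 1 ^ 0 * Y 0 ^ 3 * Y 1 ^ 2 + (-48) * X 0 ^ 5 * X 1 ^ 0 * Y 0 ^ 4 * Y 1 ^ 1 + (-112) * X 0 ^ 5 * X 1 ^ 0 * Y 0 ^ 5 * Y 1 ^ 0))) * hω

theorem id_r01 : X 0 ^ 8 * Y 1 ^ 8 = q0T.ev ω X Y * p1T.ev ω X Y + fT.ev ω X Y * r01T.ev ω X Y := by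
  simp only [BiF.ev, BiF.tm, fT, p0T, p1T, q0T, q1T, wT, r00T, r01T, r10T, r11T, List.map_cons, List.map_nil,
    List.sum_cons, List.sum_nil, Nat.reduceSub]
  push_cast
  linear_combination (-(((64) * X 0 ^ 0 * X 1 ^ 2 * Y 0 ^ 2 * Y 1 ^ 4 + (-416) * X 0 ^ 0 * X 1 ^ 2 * Y 0 ^ 3 * Y 1 ^ 3 + (864) * X 0 ^ 0 * X 1 ^ 2 * Y 0 ^ 4 * Y 1 ^ 2 + (-664) * X 0 ^ 0 * X 1 ^ 2 * Y 0 ^ 5 * Y 1 ^ 1 + (140) * X 0 ^ 0 * X 1 ^ 2 * Y 0 ^ 6 * Y 1 ^ 0 + (-64) * X 0 ^ 1 * X 1 ^ 1 * Y 0 ^ 1 * Y 1 ^ 5 + (576) * X 0 ^ 1 * X 1 ^ 1 * Y 0 ^ 2 * Y 1 ^ 4 + (-1504) * X 0 ^ 1 * X 1 ^ 1 * Y 0 ^ 3 * Y 1 ^ 3 + (1464) * X 0 ^ 1 * X 1 ^ 1 * Y 0 ^ 4 * Y 1 ^ 2 + (-448) * X 0 ^ 1 * X 1 ^ 1 * Y 0 ^ 5 * Y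 1 ^ 1 + (-160) * X 0 ^ 2 * X 1 ^ 0 * Y 0 ^ 1 * Y 1 ^ 5 + (640) * X 0 ^ 2 * X 1 ^ 0 * Y 0 ^ 2 * Y 1 ^ 4 + (-800) * X 0 ^ 2 * X 1 ^ 0 * Y 0 ^ 3 * Y 1 ^ 3 + (308) * X 0 ^ 2 * X 1 ^ 0 * Y 0 ^ 4 * Y 1 ^ 2) * ((315) * X 0 ^ 0 * X 1 ^ 6 * Y 0 ^ 2 * Y 1 ^ 0 + (-1008) * X 0 ^ 1 * X 1 ^ 5 * Y 0 ^ 1 * Y 1 ^ 1 + (-2241) * X 0 ^ 1 * X 1 ^ 5 * Y 0 ^ 2 * Y 1 ^ 0 + (693) * X 0 ^ 2 * X 1 ^ 4 * Y 0 ^ 0 * Y 1 ^ 2 + (4941) * X 0 ^ 2 * X 1 ^ 4 * Y 0 ^ 1 * Y 1 ^ 1 + (4374) * X 0 ^ 2 * X 1 ^ 4 * Y 0 ^ 2 * Y 1 ^ 0 + (-2700) * X 0 ^ 3 * X 1 ^ 3 * Y 0 ^ 0 * Y 1 ^ 2 + (-7614) * X 0 ^ 3 * X 1 ^ 3 * Y 0 ^ 1 * Y 1 ^ 1 + (-3159) * X 0 ^ 3 * X 1 ^ 3 * Y 0 ^ 2 * Y 1 ^ 0 + (3240) * X 0 ^ 4 * X 1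 ^ 2 * Y 0 ^ 0 * Y 1 ^ 2 + (4374) * X 0 ^ 4 * X 1 ^ 2 * Y 0 ^ 1 * Y 1 ^ 1 + (729) * X 0 ^ 4 * X 1 ^ 2 * Y 0 ^ 2 * Y 1 ^ 0 + (-1215) * X 0 ^ 5 * X 1 ^ 1 * Y 0 ^ 0 * Y 1 ^ 2 + (-729) * X 0 ^ 5 * X 1 ^ 1 * Y 0 ^ 1 * Y 1 ^ 1) + ((2) * X 0 ^ 0 * X 1 ^ 3 * Y 0 ^ 2 * Y 1 ^ 1 + (-2) * X 0 ^ 0 * X 1 ^ 3 * Y 0 ^ 3 * Y 1 ^ 0 + (-4) * X 0 ^ 1 * X 1 ^ 2 * Y 0 ^ 1 * Y 1 ^ 2 + (2) * X 0 ^ 1 * X 1 ^ 2 * Y 0 ^ 2 * Y 1 ^ 1 + (3) * X 0 ^ 1 * X 1 ^ 2 * Y 0 ^ 3 * Y 1 ^ 0 + (2) * X 0 ^ 2 * X 1 ^ 1 * Y 0 ^ 0 * Y 1 ^ 3 + (2) * X 0 ^ 2 * X 1 ^ 1 * Y 0 ^ 1 * Y 1 ^ 2 + (-6) * X 0 ^ 2 * X 1 ^ 1 * Y 0 ^ 2 * Y 1 ^ 1 + (-2) * X 0 ^ 3 * X 1 ^ 0 * Y 0 ^ 0 * Y 1 ^ 3 + (3) * X 0 ^ 3 * X 1 ^ 0 * Y 0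 ^ 1 * Y 1 ^ 2) * ((32) * X 0 ^ 0 * X 1 ^ 5 * Y 0 ^ 0 * Y 1 ^ 5 + (-96) * X 0 ^ 0 * X 1 ^ 5 * Y 0 ^ 1 * Y 1 ^ 4 + (-22128) * X 0 ^ 0 * X 1 ^ 5 * Y 0 ^ 2 * Y 1 ^ 3 + (86716) * X 0 ^ 0 * X 1 ^ 5 * Y 0 ^ 3 * Y 1 ^ 2 + (-88704) * X 0 ^ 0 * X 1 ^ 5 * Y 0 ^ 4 * Y 1 ^ 1 + (15876) * X 0 ^ 0 * X 1 ^ 5 * Y 0 ^ 5 * Y 1 ^ 0 + (48) * X 0 ^ 1 * X 1 ^ 4 * Y 0 ^ 0 * Y 1 ^ 5 + (34104) * X 0 ^ 1 * X 1 ^ 4 * Y 0 ^ 1 * Y 1 ^ 4 + (-109008) * X 0 ^ 1 * X 1 ^ 4 * Y 0 ^ 2 * Y 1 ^ 3 + (-52356) * X 0 ^ 1 * X 1 ^ 4 * Y 0 ^ 3 * Y 1 ^ 2 + (297216) * X 0 ^ 1 * X 1 ^ 4 * Y 0 ^ 4 * Y 1 ^ 1 + (-133056) * X 0 ^ 1 * X 1 ^ 4 * Y 0 ^ 5 * Y 1 ^ 0 + (-12032) * X 0 ^ 2 * X 1 ^ 3 * Y 0 ^ 0 * Y 1 ^ 5 + (14584)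 * X 0 ^ 2 * X 1 ^ 3 * Y 0 ^ 1 * Y 1 ^ 4 + (241890) * X 0 ^ 2 * X 1 ^ 3 * Y 0 ^ 2 * Y 1 ^ 3 + (-405710) * X 0 ^ 2 * X 1 ^ 3 * Y 0 ^ 3 * Y 1 ^ 2 + (-78534) * X 0 ^ 2 * X 1 ^ 3 * Y 0 ^ 4 * Y 1 ^ 1 + (195111) * X 0 ^ 2 * X 1 ^ 3 * Y 0 ^ 5 * Y 1 ^ 0 + (7708) * X 0 ^ 3 * X 1 ^ 2 * Y 0 ^ 0 * Y 1 ^ 5 + (-119556) * X 0 ^ 3 * X 1 ^ 2 * Y 0 ^ 1 * Y 1 ^ 4 + (71874) * X 0 ^ 3 * X 1 ^ 2 * Y 0 ^ 2 * Y 1 ^ 3 + (362835) * X 0 ^ 3 * X 1 ^ 2 * Y 0 ^ 3 * Y 1 ^ 2 + (-245268) * X 0 ^ 3 * X 1 ^ 2 * Y 0 ^ 4 * Y 1 ^ 1 + (-74682) * X 0 ^ 3 * X 1 ^ 2 * Y 0 ^ 5 * Y 1 ^ 0 + (18726) * X 0 ^ 4 * X 1 ^ 1 * Y 0 ^ 0 * Y 1 ^ 5 + (34074) * X 0 ^ 4 * X 1 ^ 1 * Y 0 ^ 1 * Y 1 ^ 4 + (-179334) * X 0 ^ 4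 * X 1 ^ 1 * Y 0 ^ 2 * Y 1 ^ 3 + (32814) * X 0 ^ 4 * X 1 ^ 1 * Y 0 ^ 3 * Y 1 ^ 2 + (115101) * X 0 ^ 4 * X 1 ^ 1 * Y 0 ^ 4 * Y 1 ^ 1 + (-486) * X 0 ^ 4 * X 1 ^ 1 * Y 0 ^ 5 * Y 1 ^ 0 + (-13330) * X 0 ^ 5 * X 1 ^ 0 * Y 0 ^ 0 * Y 1 ^ 5 + (28089) * X 0 ^ 5 * X 1 ^ 0 * Y 0 ^ 1 * Y 1 ^ 4 + (17343) * X 0 ^ 5 * X 1 ^ 0 * Y 0 ^ 2 * Y 1 ^ 3 + (-40608) * X 0 ^ 5 * X 1 ^ 0 * Y 0 ^ 3 * Y 1 ^ 2 + (243) * X 0 ^ 5 * X 1 ^ 0 * Y 0 ^ 4 * Y 1 ^ 1 + (243) * X 0 ^ 5 * X 1 ^ 0 * Y 0 ^ 5 * Y 1 ^ 0))) * hω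

theorem id_r10 : X 1 ^ 8 * Y 0 ^ 8 = q1T.ev ω X Y * p0T.ev ω X Y + fT.ev ω X Y * r10T.ev ω X Y := by
  simp only [BiF.ev, BiF.tm, fT, p0T, p1T, q0T, q1T, wT, r00T, r01T, r10T, r11T, List.map_cons, List.map_nil,
    List.sum_cons, List.sum_nil, Nat.reduceSub]
  push_cast
  linear_combination (-(((-693) * X 0 ^ 0 * X 1 ^ 2 * Y 0 ^ 2 * Y 1 ^ 4 + (2700) * X 0 ^ 0 * X 1 ^ 2 * Y 0 ^ 3 * Y 1 ^ 3 + (-3240) * X 0 ^ 0 * X 1 ^ 2 * Y 0 ^ 4 * Y 1 ^ 2 + (1215) * X 0 ^ 0 * X 1 ^ 2 * Y 0 ^ 5 * Y 1 ^ 1 + (1008) * X 0 ^ 1 * X 1 ^ 1 * Y 0 ^ 1 * Y 1 ^ 5 + (-4941) * X 0 ^ 1 * X 1 ^ 1 * Y 0 ^ 2 * Y 1 ^ 4 + (7614) * X 0 ^ 1 * X 1 ^ 1 * Y 0 ^ 3 * Y 1 ^ 3 + (-4374) * X 0 ^ 1 * X 1 ^ 1 *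 Y 0 ^ 4 * Y 1 ^ 2 + (729) * X 0 ^ 1 * X 1 ^ 1 * Y 0 ^ 5 * Y 1 ^ 1 + (-315) * X 0 ^ 2 * X 1 ^ 0 * Y 0 ^ 0 * Y 1 ^ 6 + (2241) * X 0 ^ 2 * X 1 ^ 0 * Y 0 ^ 1 * Y 1 ^ 5 + (-4374) * X 0 ^ 2 * X 1 ^ 0 * Y 0 ^ 2 * Y 1 ^ 4 + (3159) * X 0 ^ 2 * X 1 ^ 0 * Y 0 ^ 3 * Y 1 ^ 3 + (-729) * X 0 ^ 2 * X 1 ^ 0 * Y 0 ^ 4 * Y 1 ^ 2) * ((64) * X 0 ^ 1 * X 1 ^ 5 * Y 0 ^ 1 * Y 1 ^ 1 + (160) * X 0 ^ 1 * X 1 ^ 5 * Y 0 ^ 2 * Y 1 ^ 0 + (-64) * X 0 ^ 2 * X 1 ^ 4 * Y 0 ^ 0 * Y 1 ^ 2 + (-576) * X 0 ^ 2 * X 1 ^ 4 * Y 0 ^ 1 * Y 1 ^ 1 + (-640) * X 0 ^ 2 * X 1 ^ 4 * Y 0 ^ 2 * Y 1 ^ 0 + (416) * X 0 ^ 3 * X 1 ^ 3 * Y 0 ^ 0 * Y 1 ^ 2 + (1504) * X 0 ^ 3 * X 1 ^ 3 * Y 0 ^ 1 * Y 1 ^ 1 + (800) * X 0 ^ 3 *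 X 1 ^ 3 * Y 0 ^ 2 * Y 1 ^ 0 + (-864) * X 0 ^ 4 * X 1 ^ 2 * Y 0 ^ 0 * Y 1 ^ 2 + (-1464) * X 0 ^ 4 * X 1 ^ 2 * Y 0 ^ 1 * Y 1 ^ 1 + (-308) * X 0 ^ 4 * X 1 ^ 2 * Y 0 ^ 2 * Y 1 ^ 0 + (664) * X 0 ^ 5 * X 1 ^ 1 * Y 0 ^ 0 * Y 1 ^ 2 + (448) * X 0 ^ 5 * X 1 ^ 1 * Y 0 ^ 1 * Y 1 ^ 1 + (-140) * X 0 ^ 6 * X 1 ^ 0 * Y 0 ^ 0 * Y 1 ^ 2) + ((2) * X 0 ^ 0 * X 1 ^ 3 * Y 0 ^ 2 * Y 1 ^ 1 + (-2) * X 0 ^ 0 * X 1 ^ 3 * Y 0 ^ 3 * Y 1 ^ 0 + (-4) * X 0 ^ 1 * X 1 ^ 2 * Y 0 ^ 1 * Y 1 ^ 2 + (2) * X 0 ^ 1 * X 1 ^ 2 * Y 0 ^ 2 * Y 1 ^ 1 + (3) * X 0 ^ 1 * X 1 ^ 2 * Y 0 ^ 3 * Y 1 ^ 0 + (2) * X 0 ^ 2 * X 1 ^ 1 * Y 0 ^ 0 * Y 1 ^ 3 + (2) * X 0 ^ 2 * X 1 ^ 1 * Y 0 ^ 1 * Y 1 ^ 2 + (-6) * X 0 ^ 2 * X 1 ^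 1 * Y 0 ^ 2 * Y 1 ^ 1 + (-2) * X 0 ^ 3 * X 1 ^ 0 * Y 0 ^ 0 * Y 1 ^ 3 + (3) * X 0 ^ 3 * X 1 ^ 0 * Y 0 ^ 1 * Y 1 ^ 2) * ((32) * X 0 ^ 0 * X 1 ^ 5 * Y 0 ^ 0 * Y 1 ^ 5 + (48) * X 0 ^ 0 * X 1 ^ 5 * Y 0 ^ 1 * Y 1 ^ 4 + (-12032) * X 0 ^ 0 * X 1 ^ 5 * Y 0 ^ 2 * Y 1 ^ 3 + (7708) * X 0 ^ 0 * X 1 ^ 5 * Y 0 ^ 3 * Y 1 ^ 2 + (18726) * X 0 ^ 0 * X 1 ^ 5 * Y 0 ^ 4 * Y 1 ^ 1 + (-13330) * X 0 ^ 0 * X 1 ^ 5 * Y 0 ^ 5 * Y 1 ^ 0 + (-96) * X 0 ^ 1 * X 1 ^ 4 * Y 0 ^ 0 * Y 1 ^ 5 + (34104) * X 0 ^ 1 * X 1 ^ 4 * Y 0 ^ 1 * Y 1 ^ 4 + (14584) * X 0 ^ 1 * X 1 ^ 4 * Y 0 ^ 2 * Y 1 ^ 3 + (-119556) * X 0 ^ 1 * X 1 ^ 4 * Y 0 ^ 3 * Y 1 ^ 2 + (34074) * X 0 ^ 1 * X 1 ^ 4 * Y 0 ^ 4 * Y 1 ^ 1 + (28089)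 * X 0 ^ 1 * X 1 ^ 4 * Y 0 ^ 5 * Y 1 ^ 0 + (-22128) * X 0 ^ 2 * X 1 ^ 3 * Y 0 ^ 0 * Y 1 ^ 5 + (-109008) * X 0 ^ 2 * X 1 ^ 3 * Y 0 ^ 1 * Y 1 ^ 4 + (241890) * X 0 ^ 2 * X 1 ^ 3 * Y 0 ^ 2 * Y 1 ^ 3 + (71874) * X 0 ^ 2 * X 1 ^ 3 * Y 0 ^ 3 * Y 1 ^ 2 + (-179334) * X 0 ^ 2 * X 1 ^ 3 * Y 0 ^ 4 * Y 1 ^ 1 + (17343) * X 0 ^ 2 * X 1 ^ 3 * Y 0 ^ 5 * Y 1 ^ 0 + (86716) * X 0 ^ 3 * X 1 ^ 2 * Y 0 ^ 0 * Y 1 ^ 5 + (-52356) * X 0 ^ 3 * X 1 ^ 2 * Y 0 ^ 1 * Y 1 ^ 4 + (-405710) * X 0 ^ 3 * X 1 ^ 2 * Y 0 ^ 2 * Y 1 ^ 3 + (362835) * X 0 ^ 3 * X 1 ^ 2 * Y 0 ^ 3 * Y 1 ^ 2 + (32814) * X 0 ^ 3 * X 1 ^ 2 * Y 0 ^ 4 * Y 1 ^ 1 + (-40608) * X 0 ^ 3 * X 1 ^ 2 * Y 0 ^ 5 * Y 1 ^ 0 + (-88704) * X 0 ^ 4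 * X 1 ^ 1 * Y 0 ^ 0 * Y 1 ^ 5 + (297216) * X 0 ^ 4 * X 1 ^ 1 * Y 0 ^ 1 * Y 1 ^ 4 + (-78534) * X 0 ^ 4 * X 1 ^ 1 * Y 0 ^ 2 * Y 1 ^ 3 + (-245268) * X 0 ^ 4 * X 1 ^ 1 * Y 0 ^ 3 * Y 1 ^ 2 + (115101) * X 0 ^ 4 * X 1 ^ 1 * Y 0 ^ 4 * Y 1 ^ 1 + (243) * X 0 ^ 4 * X 1 ^ 1 * Y 0 ^ 5 * Y 1 ^ 0 + (15876) * X 0 ^ 5 * X 1 ^ 0 * Y 0 ^ 0 * Y 1 ^ 5 + (-133056) * X 0 ^ 5 * X 1 ^ 0 * Y 0 ^ 1 * Y 1 ^ 4 + (195111) * X 0 ^ 5 * X 1 ^ 0 * Y 0 ^ 2 * Y 1 ^ 3 + (-74682) * X 0 ^ 5 * X 1 ^ 0 * Y 0 ^ 3 * Y 1 ^ 2 + (-486) * X 0 ^ 5 * X 1 ^ 0 * Y 0 ^ 4 * Y 1 ^ 1 + (243) * X 0 ^ 5 * X 1 ^ 0 * Y 0 ^ 5 * Y 1 ^ 0))) * hω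

theorem id_r11 : X 1 ^ 8 * Y 1 ^ 8 = q1T.ev ω X Y * p1T.ev ω X Y + fT.ev ω X Y * r11T.ev ω X Y := by
  simp only [BiF.ev, BiF.tm, fT, p0T, p1T, q0T, q1T, wT, r00T, r01T, r10T, r11T, List.map_cons, List.map_nil,
    List.sum_cons, List.sum_nil, Nat.reduceSub]
  push_cast
  linear_combination (-(((-693) * X 0 ^ 0 * X 1 ^ 2 * Y 0 ^ 2 * Y 1 ^ 4 + (2700) * X 0 ^ 0 * X 1 ^ 2 * Y 0 ^ 3 * Y 1 ^ 3 + (-3240) * X 0 ^ 0 * X 1 ^ 2 * Y 0 ^ 4 * Y 1 ^ 2 + (1215) * X 0 ^ 0 * X 1 ^ 2 * Y 0 ^ 5 * Y 1 ^ 1 + (1008) * X 0 ^ 1 * X 1 ^ 1 * Y 0 ^ 1 * Y 1 ^ 5 + (-4941) * X 0 ^ 1 * X 1 ^ 1 * Y 0 ^ 2 * Y 1 ^ 4 + (7614) * X 0 ^ 1 * X 1 ^ 1 * Y 0 ^ 3 * Y 1 ^ 3 + (-4374) * X 0 ^ 1 * X 1 ^ 1 *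 Y 0 ^ 4 * Y 1 ^ 2 + (729) * X 0 ^ 1 * X 1 ^ 1 * Y 0 ^ 5 * Y 1 ^ 1 + (-315) * X 0 ^ 2 * X 1 ^ 0 * Y 0 ^ 0 * Y 1 ^ 6 + (2241) * X 0 ^ 2 * X 1 ^ 0 * Y 0 ^ 1 * Y 1 ^ 5 + (-4374) * X 0 ^ 2 * X 1 ^ 0 * Y 0 ^ 2 * Y 1 ^ 4 + (3159) * X 0 ^ 2 * X 1 ^ 0 * Y 0 ^ 3 * Y 1 ^ 3 + (-729) * X 0 ^ 2 * X 1 ^ 0 * Y 0 ^ 4 * Y 1 ^ 2) * ((315) * X 0 ^ 0 * X 1 ^ 6 * Y 0 ^ 2 * Y 1 ^ 0 + (-1008) * X 0 ^ 1 * X 1 ^ 5 * Y 0 ^ 1 * Y 1 ^ 1 + (-2241) * X 0 ^ 1 * X 1 ^ 5 * Y 0 ^ 2 * Y 1 ^ 0 + (693) * X 0 ^ 2 * X 1 ^ 4 * Y 0 ^ 0 * Y 1 ^ 2 + (4941) * X 0 ^ 2 * X 1 ^ 4 * Y 0 ^ 1 * Y 1 ^ 1 + (4374) * X 0 ^ 2 * X 1 ^ 4 * Y 0 ^ 2 * Y 1 ^ 0 + (-2700) * X 0 ^ 3 * X 1 ^ 3 * Y 0 ^ 0 * Y 1 ^ 2 + (-7614) * X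 0 ^ 3 * X 1 ^ 3 * Y 0 ^ 1 * Y 1 ^ 1 + (-3159) * X 0 ^ 3 * X 1 ^ 3 * Y 0 ^ 2 * Y 1 ^ 0 + (3240) * X 0 ^ 4 * X 1 ^ 2 * Y 0 ^ 0 * Y 1 ^ 2 + (4374) * X 0 ^ 4 * X 1 ^ 2 * Y 0 ^ 1 * Y 1 ^ 1 + (729) * X 0 ^ 4 * X 1 ^ 2 * Y 0 ^ 2 * Y 1 ^ 0 + (-1215) * X 0 ^ 5 * X 1 ^ 1 * Y 0 ^ 0 * Y 1 ^ 2 + (-729) * X 0 ^ 5 * X 1 ^ 1 * Y 0 ^ 1 * Y 1 ^ 1) + ((2) * X 0 ^ 0 * X 1 ^ 3 * Y 0 ^ 2 * Y 1 ^ 1 + (-2) * X 0 ^ 0 * X 1 ^ 3 * Y 0 ^ 3 * Y 1 ^ 0 + (-4) * X 0 ^ 1 * X 1 ^ 2 * Y 0 ^ 1 * Y 1 ^ 2 + (2) * X 0 ^ 1 * X 1 ^ 2 * Y 0 ^ 2 * Y 1 ^ 1 + (3) * X 0 ^ 1 * X 1 ^ 2 * Y 0 ^ 3 * Y 1 ^ 0 + (2) * X 0 ^ 2 * X 1 ^ 1 * Y 0 ^ 0 * Y 1 ^ 3 + (2) * X 0 ^ 2 * X 1 ^ 1 * Y 0 ^ 1 * Y 1 ^ 2 + (-6) * X 0 ^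 2 * X 1 ^ 1 * Y 0 ^ 2 * Y 1 ^ 1 + (-2) * X 0 ^ 3 * X 1 ^ 0 * Y 0 ^ 0 * Y 1 ^ 3 + (3) * X 0 ^ 3 * X 1 ^ 0 * Y 0 ^ 1 * Y 1 ^ 2) * ((-378) * X 0 ^ 0 * X 1 ^ 5 * Y 0 ^ 0 * Y 1 ^ 5 + (-243) * X 0 ^ 0 * X 1 ^ 5 * Y 0 ^ 1 * Y 1 ^ 4 + (180306) * X 0 ^ 0 * X 1 ^ 5 * Y 0 ^ 2 * Y 1 ^ 3 + (-332424) * X 0 ^ 0 * X 1 ^ 5 * Y 0 ^ 3 * Y 1 ^ 2 + (94041) * X 0 ^ 0 * X 1 ^ 5 * Y 0 ^ 4 * Y 1 ^ 1 + (45927) * X 0 ^ 0 * X 1 ^ 5 * Y 0 ^ 5 * Y 1 ^ 0 + (-243) * X 0 ^ 1 * X 1 ^ 4 * Y 0 ^ 0 * Y 1 ^ 5 + (-360126) * X 0 ^ 1 * X 1 ^ 4 * Y 0 ^ 1 * Y 1 ^ 4 + (332424) * X 0 ^ 1 * X 1 ^ 4 * Y 0 ^ 2 * Y 1 ^ 3 + (872613) * X 0 ^ 1 * X 1 ^ 4 * Y 0 ^ 3 * Y 1 ^ 2 + (-905418) * X 0 ^ 1 * X 1 ^ 4 * Y 0 ^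 4 * Y 1 ^ 1 + (118098) * X 0 ^ 1 * X 1 ^ 4 * Y 0 ^ 5 * Y 1 ^ 0 + (180306) * X 0 ^ 2 * X 1 ^ 3 * Y 0 ^ 0 * Y 1 ^ 5 + (332424) * X 0 ^ 2 * X 1 ^ 3 * Y 0 ^ 1 * Y 1 ^ 4 + (-1933308) * X 0 ^ 2 * X 1 ^ 3 * Y 0 ^ 2 * Y 1 ^ 3 + (859491) * X 0 ^ 2 * X 1 ^ 3 * Y 0 ^ 3 * Y 1 ^ 2 + (846369) * X 0 ^ 2 * X 1 ^ 3 * Y 0 ^ 4 * Y 1 ^ 1 + (-354294) * X 0 ^ 2 * X 1 ^ 3 * Y 0 ^ 5 * Y 1 ^ 0 + (-332424) * X 0 ^ 3 * X 1 ^ 2 * Y 0 ^ 0 * Y 1 ^ 5 + (872613) * X 0 ^ 3 * X 1 ^ 2 * Y 0 ^ 1 * Y 1 ^ 4 + (859491) * X 0 ^ 3 * X 1 ^ 2 * Y 0 ^ 2 * Y 1 ^ 3 + (-1928934) * X 0 ^ 3 * X 1 ^ 2 * Y 0 ^ 3 * Y 1 ^ 2 + (354294) * X 0 ^ 3 * X 1 ^ 2 * Y 0 ^ 4 * Y 1 ^ 1 + (177147) * X 0 ^ 3 * X 1 ^ 2 * Y 0 ^ 5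 * Y 1 ^ 0 + (94041) * X 0 ^ 4 * X 1 ^ 1 * Y 0 ^ 0 * Y 1 ^ 5 + (-905418) * X 0 ^ 4 * X 1 ^ 1 * Y 0 ^ 1 * Y 1 ^ 4 + (846369) * X 0 ^ 4 * X 1 ^ 1 * Y 0 ^ 2 * Y 1 ^ 3 + (354294) * X 0 ^ 4 * X 1 ^ 1 * Y 0 ^ 3 * Y 1 ^ 2 + (-354294) * X 0 ^ 4 * X 1 ^ 1 * Y 0 ^ 4 * Y 1 ^ 1 + (45927) * X 0 ^ 5 * X 1 ^ 0 * Y 0 ^ 0 * Y 1 ^ 5 + (118098) * X 0 ^ 5 * X 1 ^ 0 * Y 0 ^ 1 * Y 1 ^ 4 + (-354294) * X 0 ^ 5 * X 1 ^ 0 * Y 0 ^ 2 * Y 1 ^ 3 + (177147) * X 0 ^ 5 * X 1 ^ 0 * Y 0 ^ 3 * Y 1 ^ 2))) * hω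

theorem id_f : fT.ev ω X Y = dt (gv ω 0 X) Y * dt (gv ω 1 X) Y * dt (gv ω 2 X) Y := by
  simp only [BiF.ev, BiF.tm, gv, dt, fT, p0T, p1T, List.map_cons, List.map_nil,
    List.sum_cons, List.sum_nil, Nat.reduceSub, Matrix.cons_val_zero, Matrix.cons_val_one, Matrix.cons_val]
  push_cast
  linear_combination ((1) * X 1 ^ 3 * Y 0 ^ 3 + (-3) * X 0 * X 1 ^ 2 * Y 0 ^ 2 * Y 1 + (3) * X 0 ^ 2 * X 1 * Y 0 * Y 1 ^ 2 + (-1) * X 0 ^ 3 * Y 1 ^ 3) * hω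

theorem id_p00 : p0T.ev ω X (gv ω 0 X) = gv ω 0 X 0 ^ 8 := by
  simp only [BiF.ev, BiF.tm, gv, dt, fT, p0T, p1T, List.map_cons, List.map_nil,
    List.sum_cons, List.sum_nil, Nat.reduceSub, Matrix.cons_val_zero, Matrix.cons_val_one, Matrix.cons_val]
  push_cast
  linear_combination 0 * hω

theorem id_p10 : p1T.ev ω X (gv ω 0 X) = gv ω 0 X 1 ^ 8 := by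
  simp only [BiF.ev, BiF.tm, gv, dt, fT, p0T, p1T, List.map_cons, List.map_nil,
    List.sum_cons, List.sum_nil, Nat.reduceSub, Matrix.cons_val_zero, Matrix.cons_val_one, Matrix.cons_val]
  push_cast
  linear_combination 0 * hω

theorem id_p01 : p0T.ev ω X (gv ω 1 X) = gv ω 1 X 0 ^ 8 := by
  simp only [BiF.ev, BiF.tm, gv, dt, fT, p0T, p1T, List.map_cons, List.map_nil,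
    List.sum_cons, List.sum_nil, Nat.reduceSub, Matrix.cons_val_zero, Matrix.cons_val_one, Matrix.cons_val]
  push_cast
  linear_combination ((64) * X 0 ^ 2 * X 1 ^ 6 + (-256) * X 0 ^ 3 * X 1 ^ 5 + (224) * X 0 ^ 4 * X 1 ^ 4 + (136) * X 0 ^ 5 * X 1 ^ 3 + (-168) * X 0 ^ 6 * X 1 ^ 2 + (1) * ω ^ 2 * X 0 ^ 8 + (1) * ω ^ 3 * X 0 ^ 8 + (-1) * ω ^ 5 * X 0 ^ 8 + (-1) * ω ^ 6 * X 0 ^ 8) * hω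

theorem id_p11 : p1T.ev ω X (gv ω 1 X) = gv ω 1 X 1 ^ 8 := by
  simp only [BiF.ev, BiF.tm, gv, dt, fT, p0T, p1T, List.map_cons, List.map_nil,
    List.sum_cons, List.sum_nil, Nat.reduceSub, Matrix.cons_val_zero, Matrix.cons_val_one, Matrix.cons_val]
  push_cast
  linear_combination ((-378) * X 0 ^ 2 * X 1 ^ 6 + (459) * X 0 ^ 3 * X 1 ^ 5 + (1134) * X 0 ^ 4 * X 1 ^ 4 + (-1944) * X 0 ^ 5 * X 1 ^ 3 + (729) * X 0 ^ 6 * X 1 ^ 2 + (6) * ω * X 1 ^ 8 + (-21) * ω ^ 2 * X 1 ^ 8 + (29) * ω ^ 3 * X 1 ^ 8 + (-20) * ω ^ 4 * X 1 ^ 8 + (7) * ω ^ 5 * X 1 ^ 8 + (-1) * ω ^ 6 * X 1 ^ 8) * hω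

theorem id_p02 : p0T.ev ω X (gv ω 2 X) = gv ω 2 X 0 ^ 8 := by
  simp only [BiF.ev, BiF.tm, gv, dt, fT, p0T, p1T, List.map_cons, List.map_nil,
    List.sum_cons, List.sum_nil, Nat.reduceSub, Matrix.cons_val_zero, Matrix.cons_val_one, Matrix.cons_val]
  push_cast
  linear_combination ((128) * X 0 * X 1 ^ 7 + (-2624) * X 0 ^ 2 * X 1 ^ 6 + (16256) * X 0 ^ 3 * X 1 ^ 5 + (-48656) * X 0 ^ 4 * X 1 ^ 4 + (80744) * X 0 ^ 5 * X 1 ^ 3 + (-76256) * X 0 ^ 6 * X 1 ^ 2 + (38472) * X 0 ^ 7 * X 1 + (-8064) * X 0 ^ 8 + (-1792) * ω * X 0 ^ 3 * X 1 ^ 5 + (12320) * ω * X 0 ^ 4 * X 1 ^ 4 + (-33600) * ω * X 0 ^ 5 * X 1 ^ 3 + (45472) * ω * X 0 ^ 6 * X 1 ^ 2 + (-30560) * ω * X 0 ^ 7 * X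 1 + (8166) * ω * X 0 ^ 8 + (-1120) * ω ^ 2 * X 0 ^ 4 * X 1 ^ 4 + (6272) * ω ^ 2 * X 0 ^ 5 * X 1 ^ 3 + (-13104) * ω ^ 2 * X 0 ^ 6 * X 1 ^ 2 + (12112) * ω ^ 2 * X 0 ^ 7 * X 1 + (-4181) * ω ^ 2 * X 0 ^ 8 + (-448) * ω ^ 3 * X 0 ^ 5 * X 1 ^ 3 + (1904) * ω ^ 3 * X 0 ^ 6 * X 1 ^ 2 + (-2688) * ω ^ 3 * X 0 ^ 7 * X 1 + (1261) * ω ^ 3 * X 0 ^ 8 + (-112) * ω ^ 4 * X 0 ^ 6 * X 1 ^ 2 + (320) * ω ^ 4 * X 0 ^ 7 * X 1 + (-228) * ω ^ 4 * X 0 ^ 8 + (-16) * ω ^ 5 * X 0 ^ 7 * X 1 + (23) * ω ^ 5 * X 0 ^ 8 + (-1) * ω ^ 6 * X 0 ^ 8) * hω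

theorem id_p12 : p1T.ev ω X (gv ω 2 X) = gv ω 2 X 1 ^ 8 := by
  simp only [BiF.ev, BiF.tm, gv, dt, fT, p0T, p1T, List.map_cons, List.map_nil,
    List.sum_cons, List.sum_nil, Nat.reduceSub, Matrix.cons_val_zero, Matrix.cons_val_one, Matrix.cons_val]
  push_cast
  linear_combination ((-3024) * X 1 ^ 8 + (26460) * X 0 * X 1 ^ 7 + (-94716) * X 0 ^ 2 * X 1 ^ 6 + (178767) * X 0 ^ 3 * X 1 ^ 5 + (-189621) * X 0 ^ 4 * X 1 ^ 4 + (109836) * X 0 ^ 5 * X 1 ^ 3 + (-29889) * X 0 ^ 6 * X 1 ^ 2 + (2187) * X 0 ^ 7 * X 1 + (-2784) * ω * X 1 ^ 8 + (19800) * ω * X 0 * X 1 ^ 7 + (-55188) * ω * X 0 ^ 2 * X 1 ^ 6 + (75600) * ω * X 0 ^ 3 * X 1 ^ 5 + (-51030) * ω * X 0 ^ 4 * X 1 ^ 4 + (13608)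 * ω * X 0 ^ 5 * X 1 ^ 3 + (-1551) * ω ^ 2 * X 1 ^ 8 + (8712) * ω ^ 2 * X 0 * X 1 ^ 7 + (-18144) * ω ^ 2 * X 0 ^ 2 * X 1 ^ 6 + (16632) * ω ^ 2 * X 0 ^ 3 * X 1 ^ 5 + (-5670) * ω ^ 2 * X 0 ^ 4 * X 1 ^ 4 + (-559) * ω ^ 3 * X 1 ^ 8 + (2352) * ω ^ 3 * X 0 * X 1 ^ 7 + (-3276) * ω ^ 3 * X 0 ^ 2 * X 1 ^ 6 + (1512) * ω ^ 3 * X 0 ^ 3 * X 1 ^ 5 + (-128) * ω ^ 4 * X 1 ^ 8 + (360) * ω ^ 4 * X 0 * X 1 ^ 7 + (-252) * ω ^ 4 * X 0 ^ 2 * X 1 ^ 6 + (-17) * ω ^ 5 * X 1 ^ 8 + (24) * ω ^ 5 * X 0 * X 1 ^ 7 + (-1) * ω ^ 6 * X 1 ^ 8) * hω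

end ids

end Crest.Agent.R258
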